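import Vale.Agent.P216.B64.Contract

/-!
# P216, Theorem C (`S³`, `F₂`): the contract between the topology of the free loops and `T2Sys`

`XOut2 M B k`: the stable cohomology of the sublevels `XL M t` of the free loop space of a
3-sphere, for a field of characteristic `2` (or any field). One generator `g q t` in every degree
`q`; `g (2 i + 2)` is the class `x`, `g (2 i + 3)` is the class `y`; nothing in degree `1`.
-/

open Set Topology BoundedContinuousFunction

namespace Vale.Agent.P216.H828C

open AS L250 GM B64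

/-- Output of the topology of the free loop space of `S³`, for one field. -/
structure XOut2 (M : Type) [MetricSpace M] (B : ℝ) (k : Type) [Field k] where
  g : ∀ (q : ℕ) (t : ℝ), HU k (XL M t) q
  res_g : ∀ q s t (h : s ≤ t), hres k (XL_mono h) q (g q t) = g q s
  span : ∀ q t, 0 ≤ t → ∀ (h : XL M t ⊆ XL M (t + B)) (z : HU k (XL M (t + B)) q),
    ∃ c : k, hres k h q z = c • g q t
  g_one : ∀ t, g 1 t = 0
  /-- births of the `x` -/
  birth_x0 : ∀ t, B ≤ t → g 2 t ≠ 0
  birth_x : ∀ i t, 0 ≤ t → g (2 * i + 2) t ≠ 0 → g (2 * (i + 1) + 2) (t + B) ≠ 0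
  /-- births of the `y` -/
  birth_y0 : ∀ t, B ≤ t → g 3 t ≠ 0
  birth_y : ∀ i t, 0 ≤ t → g (2 * i + 3) t ≠ 0 → g (2 * (i + 1) + 3) (t + B) ≠ 0

end Vale.Agent.P216.H828C
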