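import Vale.Agent.P216.H828C.Contract2
import Vale.Agent.P216.B633.Lim

/-!
# P216, Theorem C, block [OUT2]: from `XOut2` to the global classes of `T2Sys`

`HIso M TH rE`: the tower `TH` (groups `H t q`) with the operators `rE` is the tower of the
`HU k (XL M t) q` with the reversal. From `XOut2`:
* `gh q` = the generator of the global classes, `exists_smul`, `eq_zero_one`;
* `rE_ev`: the reversal fixes the global classes if `k` has two elements;
* `range_ev_eq`, `bars`: the global classes at a level are the stable images; bounded bars;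
* `birth0`, `birth` for `y i = gh (2 i + 3)`.
-/

set_option linter.unusedSectionVars false

open Module LinearMap Set

namespace Vale.Agent.P216.H828C

open Vale.Agent.P216.AS Vale.Agent.P216.B64 Vale.Agent.P216.B633 GM L250

section Rev

variable {M : Type} [MetricSpace M] {B : ℝ} {k : Type} [Field k]

/-- The tower of the sublevels of the free loop space. -/
noncomputable def towerXL (k : Type) [Field k] (M : Type) [MetricSpace M] (q : ℕ) :
    Tower k fun t => HU k (XL M t) q where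
  ρ _ _ h := hres k (XL_mono h) q
  ρ_id _ x := res_refl _ x
  ρ_ρ _ _ _ h h' x := res_res (XL_mono h') (XL_mono h) x

theorem rev_rev (t : ℝ) (q : ℕ) (z : HU k (XL M t) q) :
    hpull k (umap_rev t) q (hpull k (umap_rev t) q z) = z := by
  obtain ⟨c, hc, rfl⟩ := H.exists_mk z
  have e : P265.AS.pb (L250.rev : LM M → LM M) (P265.AS.pb (L250.rev : LM M → LM M) c) = c := by
    funext x
    change c (L250.rev ∘ (L250.rev ∘ x)) = c x
    congr 1
    funext i
    exact L250.rev_rev _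
  exact AS.H.mk_eq_mk.2 (by
    change P265.AS.pb (L250.rev : LM M → LM M) (P265.AS.pb (L250.rev : LM M → LM M) c) - c ∈ _
    rw [e, sub_self]
    exact Submodule.zero_mem _)

/-- the reversal commutes with the restrictions -/
theorem rev_res {s t : ℝ} (h : s ≤ t) (q : ℕ) (z : HU k (XL M t) q) :
    hres k (XL_mono h) q (hpull k (umap_rev t) q z) =
      hpull k (umap_rev s) q (hres k (XL_mono h) q z) := by
  obtain ⟨c, hc, rfl⟩ := H.exists_mk z
  rfl

/-- The reversal fixes the generators if `k` has two elements. -/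
theorem rev_g (X : XOut2 M B k) (hB : 0 < B) (h2 : ∀ c : k, c = 0 ∨ c = 1) (q : ℕ) (t : ℝ) :
    hpull k (umap_rev t) q (X.g q t) = X.g q t := by
  have main : ∀ t, 0 ≤ t → hpull k (umap_rev t) q (X.g q t) = X.g q t := by
    intro t ht
    obtain ⟨c, hc⟩ := X.span q t ht (XL_mono (by linarith))
      (hpull k (umap_rev (t + B)) q (X.g q (t + B)))
    have h1 := rev_res (show t ≤ t + B by linarith) q (X.g q (t + B))
    rw [X.res_g q t (t + B) (by linarith)] at h1
    rw [h1] at hc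
    rcases h2 c with rfl | rfl
    · rw [zero_smul] at hc
      have h3 := rev_rev t q (X.g q t)
      rw [hc, map_zero] at h3
      rw [hc, ← h3]
    · rw [hc, one_smul]
  have h3 := rev_res (le_max_left t 0) q (X.g q (max t 0))
  rw [main _ (le_max_right _ _), X.res_g q t (max t 0) (le_max_left _ _)] at h3
  exact h3.symm

end Rev

/-- The groups `H t q` are the cohomology of the sublevels `XL M t`, with restriction and
reversal. -/
structure HIso (M : Type) [MetricSpace M] {k : Type} [Field k] {H : ℝ → ℕ → Type}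
    [∀ t n, AddCommGroup (H t n)] [∀ t n, Module k (H t n)]
    (TH : ∀ n, Tower k fun t => H t n) (rE : ∀ t n, H t n →ₗ[k] H t n) where
  φ : ∀ t q, H t q ≃ₗ[k] HU k (XL M t) q
  nat : ∀ q s t (h : s ≤ t) (x : H t q),
    φ s q ((TH q).ρ s t h x) = hres k (XL_mono h) q (φ t q x)
  rev : ∀ t q (x : H t q), φ t q (rE t q x) = hpull k (umap_rev t) q (φ t q x)

/-- The tower of the sublevels itself. -/
noncomputable def HIso.self (k : Type) [Field k] (M : Type) [MetricSpace M] :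
    HIso M (towerXL k M) fun t q => hpull k (umap_rev (M := M) t) q where
  φ _ _ := LinearEquiv.refl k _
  nat _ _ _ _ _ := rfl
  rev _ _ _ := rfl

namespace HIso

variable {M : Type} [MetricSpace M] {B : ℝ} {k : Type} [Field k] {H : ℝ → ℕ → Type}
  [∀ t n, AddCommGroup (H t n)] [∀ t n, Module k (H t n)]
  {TH : ∀ n, Tower k fun t => H t n} {rE : ∀ t n, H t n →ₗ[k] H t n}
  (Φ : HIso M TH rE) (X : XOut2 M B k)

include Φ X

/-- the generator of the global classes of degree `q` -/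
noncomputable def gh (q : ℕ) : (TH q).Lim := ⟨fun t => (Φ.φ t q).symm (X.g q t), fun s t h => by
  apply (Φ.φ s q).injective
  rw [Φ.nat, LinearEquiv.apply_symm_apply, LinearEquiv.apply_symm_apply, X.res_g]
  exact h⟩

theorem φ_gh (t : ℝ) (q : ℕ) : Φ.φ t q ((TH q).ev t (Φ.gh X q)) = X.g q t :=
  (Φ.φ t q).apply_symm_apply _

theorem ev_gh_ne {t : ℝ} {q : ℕ} : (TH q).ev t (Φ.gh X q) ≠ 0 ↔ X.g q t ≠ 0 := by
  rw [← Φ.φ_gh X, ne_eq, ne_eq, LinearEquiv.map_eq_zero_iff]

/-- stable images are in the line of the generator -/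
theorem span' {t T : ℝ} (ht : 0 ≤ t) (hB : 0 < B) (h : t ≤ T) (hT : t + B ≤ T) {q : ℕ}
    (x : H T q) : ∃ c : k, (TH q).ρ t T h x = c • (TH q).ev t (Φ.gh X q) := by
  obtain ⟨c, hc⟩ := X.span q t ht (XL_mono (by linarith))
    (hres k (XL_mono hT) q (Φ.φ T q x))
  refine ⟨c, (Φ.φ t q).injective ?_⟩
  rw [Φ.nat, map_smul, φ_gh, ← hc]
  exact (AS.res_res _ _ _).symm

theorem ρ_gh {s t : ℝ} (h : s ≤ t) (q : ℕ) :
    (TH q).ρ s t h ((TH q).ev t (Φ.gh X q)) = (TH q).ev s (Φ.gh X q) := (TH q).ρ_ev s t h _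

/-- **every global class is a multiple of the generator** -/
theorem exists_smul (hB : 0 < B) (q : ℕ) (x : (TH q).Lim) : ∃ c : k, x = c • Φ.gh X q := by
  have h1 : ∀ t, 0 ≤ t → ∃ c : k, (TH q).ev t x = c • (TH q).ev t (Φ.gh X q) := by
    intro t ht
    obtain ⟨c, hc⟩ := Φ.span' X ht hB (T := t + B) (by linarith) le_rfl ((TH q).ev (t + B) x)
    exact ⟨c, by rw [← hc, (TH q).ρ_ev]⟩
  by_cases hz : ∀ t, 0 ≤ t → (TH q).ev t (Φ.gh X q) = 0
  · refine ⟨0, (TH q).ext fun t => ?_⟩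
    obtain ⟨c, hc⟩ := h1 (max t 0) (le_max_right _ _)
    rw [hz _ (le_max_right _ _), smul_zero] at hc
    rw [zero_smul, map_zero, ← (TH q).ρ_ev t (max t 0) (le_max_left _ _) x, hc, map_zero]
  · push Not at hz
    obtain ⟨t₀, ht₀, hne⟩ := hz
    obtain ⟨c, hc⟩ := h1 t₀ ht₀
    refine ⟨c, (TH q).ext fun t => ?_⟩
    obtain ⟨c', hc'⟩ := h1 (max t t₀) (ht₀.trans (le_max_right _ _))
    have h2 : c' • (TH q).ev t₀ (Φ.gh X q) = c • (TH q).ev t₀ (Φ.gh X q) := by
      rw [← hc, ← (TH q).ρ_ev t₀ (max t t₀) (le_max_right _ _) x, hc', map_smul, ρ_gh]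
    have h3 : c' = c := smul_left_injective k hne h2
    rw [map_smul, ← (TH q).ρ_ev t (max t t₀) (le_max_left _ _) x, hc', h3, map_smul, ρ_gh]

/-- no global classes of degree `1` -/
theorem eq_zero_one (hB : 0 < B) (x : (TH 1).Lim) : x = 0 := by
  obtain ⟨c, rfl⟩ := Φ.exists_smul X hB 1 x
  have : Φ.gh X 1 = 0 := (TH 1).ext fun t => by
    apply (Φ.φ t 1).injective
    rw [φ_gh, X.g_one t, map_zero, map_zero]
  rw [this, smul_zero]

/-- **the reversal fixes the global classes**, if `k` has two elements -/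
theorem rE_ev (hB : 0 < B) (h2 : ∀ c : k, c = 0 ∨ c = 1) (t : ℝ) (q : ℕ) (x : (TH q).Lim) :
    rE t q ((TH q).ev t x) = (TH q).ev t x := by
  obtain ⟨c, rfl⟩ := Φ.exists_smul X hB q x
  apply (Φ.φ t q).injective
  rw [Φ.rev, map_smul, map_smul, φ_gh, map_smul, rev_g X hB h2]

theorem range_le (hB : 0 < B) (t : ℝ) (q : ℕ) :
    LinearMap.range ((TH q).ev t) ≤ Submodule.span k {(TH q).ev t (Φ.gh X q)} := by
  rintro _ ⟨x, rfl⟩
  obtain ⟨c, rfl⟩ := Φ.exists_smul X hB q x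
  rw [map_smul]
  exact Submodule.smul_mem _ _ (Submodule.mem_span_singleton_self _)

theorem rk (hB : 0 < B) (t : ℝ) (q : ℕ) : finrank k (LinearMap.range ((TH q).ev t)) ≤ 1 :=
  (Submodule.finrank_mono (Φ.range_le X hB t q)).trans
    ((finrank_span_le_card _).trans (by simp))

theorem ev_ne_iff (hB : 0 < B) (t : ℝ) (q : ℕ) : (TH q).ev t ≠ 0 ↔ X.g q t ≠ 0 := by
  rw [← Φ.ev_gh_ne X]
  constructor
  · intro h h0
    apply h
    ext x
    obtain ⟨c, rfl⟩ := Φ.exists_smul X hB q x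
    rw [map_smul, h0, smul_zero, LinearMap.zero_apply]
  · intro h h0
    apply h
    rw [h0, LinearMap.zero_apply]

/-- **stable images** -/
theorem stable (hB : 0 < B) {s t : ℝ} (hs : 0 ≤ s) (h : s ≤ s + B) (ht : s ≤ t) (q : ℕ) :
    LinearMap.range ((TH q).ρ s (s + B) h) ≤ LinearMap.range ((TH q).ρ s t ht) := by
  rintro _ ⟨x, rfl⟩
  obtain ⟨c, hc⟩ := Φ.span' X hs hB h le_rfl x
  exact ⟨c • (TH q).ev t (Φ.gh X q), by rw [hc, map_smul, ρ_gh]⟩

/-- **the global classes at the level `s` are the stable images** (no finiteness needed) -/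
theorem range_ev_eq (hB : 0 < B) {s T : ℝ} (hs : 0 ≤ s) (h : s ≤ T) (hT : s + B ≤ T) (q : ℕ) :
    LinearMap.range ((TH q).ev s) = LinearMap.range ((TH q).ρ s T h) := by
  apply le_antisymm
  · rintro _ ⟨x, rfl⟩
    exact ⟨(TH q).ev T x, (TH q).ρ_ev _ _ _ _⟩
  · rintro _ ⟨x, rfl⟩
    obtain ⟨c, hc⟩ := Φ.span' X hs hB h hT x
    exact ⟨c • Φ.gh X q, by rw [hc, map_smul]⟩

/-- **bounded bars bound the groups modulo the global classes** -/
theorem bars {crit : Set ℝ} {K : ℕ} (hB : 0 < B)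
    (hK : ∀ t, 0 < t → t ∉ crit → ∀ m, ∀ T (h : t ≤ T), t + B ≤ T →
      ∑ i ∈ Finset.range m, (finrank k (H t i) -
        finrank k (LinearMap.range ((TH i).ρ t T h))) ≤ K) (t : ℝ) (h0 : 0 < t) (ht : t ∉ crit)
    (m : ℕ) : ∑ i ∈ Finset.range m, (finrank k (H t i) -
      finrank k (LinearMap.range ((TH i).ev t))) ≤ K := by
  refine le_trans (le_of_eq (Finset.sum_congr rfl fun i _ => ?_))
    (hK t h0 ht m (t + B) (by linarith) le_rfl)
  rw [Φ.range_ev_eq X hB h0.le (by linarith) le_rfl i]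

/-! ### The classes `y` -/

/-- the degree of `y i` -/
abbrev fy (i : ℕ) : ℕ := 2 * i + 3

/-- the classes `y i` -/
noncomputable abbrev yh (i : ℕ) : (TH (2 * i + 3)).Lim := Φ.gh X (2 * i + 3)

omit Φ X [∀ t n, AddCommGroup (H t n)] in
theorem fy_mono : StrictMono fun i : ℕ => 2 * i + 3 := fun i j h => by
  change 2 * i + 3 < 2 * j + 3
  omega

/-- **births of the `y i`** -/
theorem birth0_y (t : ℝ) (ht : B ≤ t) : (TH (2 * 0 + 3)).ev t (Φ.yh X 0) ≠ 0 :=
  (Φ.ev_gh_ne X).2 (X.birth_y0 t ht)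

theorem birth_y (i : ℕ) (s t : ℝ) (hs : 0 < s) (hst : s + B ≤ t)
    (h : (TH (2 * i + 3)).ev s (Φ.yh X i) ≠ 0) :
    (TH (2 * (i + 1) + 3)).ev t (Φ.yh X (i + 1)) ≠ 0 := by
  have h1 := X.birth_y i s hs.le ((Φ.ev_gh_ne X).1 h)
  refine (Φ.ev_gh_ne X).2 fun h0 => h1 ?_
  rw [← X.res_g _ _ _ hst, h0, map_zero]

/-- **births of the `x i = gh (2 i + 2)`** -/
theorem birth0_x (t : ℝ) (ht : B ≤ t) : (TH (2 * 0 + 2)).ev t (Φ.gh X (2 * 0 + 2)) ≠ 0 :=
  (Φ.ev_gh_ne X).2 (X.birth_x0 t ht)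

theorem birth_x (i : ℕ) (s t : ℝ) (hs : 0 < s) (hst : s + B ≤ t)
    (h : (TH (2 * i + 2)).ev s (Φ.gh X (2 * i + 2)) ≠ 0) :
    (TH (2 * (i + 1) + 2)).ev t (Φ.gh X (2 * (i + 1) + 2)) ≠ 0 := by
  have h1 := X.birth_x i s hs.le ((Φ.ev_gh_ne X).1 h)
  refine (Φ.ev_gh_ne X).2 fun h0 => h1 ?_
  rw [← X.res_g _ _ _ hst, h0, map_zero]

end HIso

theorem zmod_two (c : ZMod 2) : c = 0 ∨ c = 1 := by
  fin_cases c
  · exact Or.inl rfl
  · exact Or.inr rfl

end Vale.Agent.P216.H828C
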