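import Vale.Agent.P216.H828C.PM2
import Vale.Agent.P216.H828C.Contract2
import Vale.Agent.P216.H799.W3
import Vale.Agent.P216.H754B.Fl
import Vale.Agent.P216.H388.Sph

/-!
# P216, Theorem C: the stable cohomology of the Moore-Lipschitz free loops of `S³`, every field

`FLOut2 M B k` = `XOut2` for the sets `FL M t`, `t > 0`.  `LongClasses M m k`: in every degree
`(j + 1) m` there are classes with a long life (for `S³`: pulled back from the based loops by the
group structure); it makes all the structure constants vanish.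
-/

set_option linter.all false

open Set BoundedContinuousFunction

namespace Vale.Agent.P216.H828C

open Vale.Agent.P216.AS Vale.Agent.P216.H901 Vale.Agent.P216.PS Vale.Agent.P216.MV337
open Vale.Agent.P216.B64 Vale.Agent.P216.H754B

/-- Output of the topology of the Moore free loops of `S³`, for one field. -/
structure FLOut2 (M : Type) [MetricSpace M] (B : ℝ) (k : Type) [Field k] where
  g : ∀ (q : ℕ) (t : ℝ), HU k (FL M t) q
  res_g : ∀ q s t, 0 < s → ∀ (h : s ≤ t), hres k (FL_mono h) q (g q t) = g q s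
  span : ∀ q t, 0 < t → ∀ (h : FL M t ⊆ FL M (t + B)) (z : HU k (FL M (t + B)) q),
    ∃ c : k, hres k h q z = c • g q t
  g_one : ∀ t, 0 < t → g 1 t = 0
  birth_x0 : ∀ t, 0 < t → B ≤ t → g 2 t ≠ 0
  birth_x : ∀ i t, 0 < t → g (2 * i + 2) t ≠ 0 → g (2 * (i + 1) + 2) (t + B) ≠ 0
  birth_y0 : ∀ t, 0 < t → B ≤ t → g 3 t ≠ 0
  birth_y : ∀ i t, 0 < t → g (2 * i + 3) t ≠ 0 → g (2 * (i + 1) + 3) (t + B) ≠ 0

section Out

variable {M : Type} [MetricSpace M] {D : ℝ} {k : Type} [Field k]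
  (P : PM2 (fun q => XP k M q) D)

/-- The generators, for all real `t`. -/
noncomputable def gg2 (q : ℕ) (t : ℝ) : HU k (FL M t) q :=
  if ht : 0 < t then (P.g q).z t ht else (0 : HU k (FL M t) q)

theorem gg2_eq (q : ℕ) (t : ℝ) (ht : 0 < t) : gg2 P q t = (P.g q).z t ht := by
  unfold gg2
  exact dif_pos ht

/-- **`FLOut2` from `PM2`.** -/
noncomputable def flOut2 (hD : 0 ≤ D) : FLOut2 M D k where
  g := gg2 P
  res_g q s t hs h := by
    rw [gg2_eq P q s hs, gg2_eq P q t (hs.trans_le h)]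
    exact (P.g q).comp s t hs h
  span q t ht h z := by
    obtain ⟨a, ha⟩ := P.line q t (t + D) ht (by linarith) le_rfl z
    refine ⟨a, ?_⟩
    rw [gg2_eq P q t ht]
    exact ha
  g_one t ht := by
    rw [gg2_eq P 1 t ht]
    exact P.g_one t ht
  birth_x0 t ht h := by
    rw [gg2_eq P _ t ht]
    exact P.birth_x0 t ht h
  birth_x i t ht h := by
    rw [gg2_eq P _ t ht] at h
    rw [gg2_eq P _ (t + D) (by linarith)]
    exact P.birth_x i t (t + D) ht (by linarith) le_rfl h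
  birth_y0 t ht h := by
    rw [gg2_eq P _ t ht]
    exact P.birth_y0 t ht h
  birth_y i t ht h := by
    rw [gg2_eq P _ t ht] at h
    rw [gg2_eq P _ (t + D) (by linarith)]
    exact P.birth_y i t (t + D) ht (by linarith) le_rfl h

end Out

/-- Classes with a long life in the degrees `(j + 1) m`. -/
def LongClasses (M : Type) [MetricSpace M] (m : ℕ) (k : Type) [Field k] : Prop :=
  ∀ (j : ℕ) (D : ℝ), ∃ (s t : ℝ) (_ : 0 < s) (hst : s ≤ t) (_ : s + D ≤ t)
    (z : HU k (FL M t) ((j + 1) * m)), hres k (FL_mono hst) ((j + 1) * m) z ≠ 0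

theorem LongClasses.of_eq {M : Type} [MetricSpace M] {m : ℕ} {k : Type} [Field k]
    (h : LongClasses M m k) (j : ℕ) (D : ℝ) (q : ℕ) (hq : q = (j + 1) * m) :
    ∃ (s t : ℝ) (_ : 0 < s) (hst : s ≤ t) (_ : s + D ≤ t)
      (z : HU k (FL M t) q), hres k (FL_mono hst) q z ≠ 0 := by
  subst hq
  exact h j D

section Cf

variable {M : Type} [MetricSpace M] [CompactSpace M] {x₀ : M} {k : Type} [Field k]

/-- **All the structure constants vanish.** -/
theorem cf_zero {m : ℕ} (hm : 2 ≤ m) {c : ℝ}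
    (T : Triv (m + 1) (evz (M := M)) (fun t => FL M t) (fun t => P x₀ x₀ t) c)
    (hL : LongClasses M m k) {B C B0 : ℝ} (hB : 0 ≤ B) (hC : 0 ≤ C)
    (b : Based m (fun q => PMa k (fun t => P x₀ x₀ t) T.Om_mono q) B C B0) (j : ℕ) :
    (H799.wang T k).cf b hB j = 0 := by
  rcases j with _ | j
  · rfl
  · obtain ⟨s, t, hs, hst, h, z, hz⟩ := hL.of_eq j (2 * B + C + 6 * c) (m * (j + 1)) (mul_comm _ _)
    exact (H799.wang T k).cf_zero_of_class b hm hB hC j hs hst h z hz

end Cf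

/-- **`FLOut2`** for every space homeomorphic to `S³`, from the cohomology of the based loops and
classes with a long life. -/
theorem exists_flOut2 (M : Type) [MetricSpace M] [CompactSpace M] {ρ : ℝ} (hρ : 0 < ρ)
    (hU : LS.UniqSeg M ρ) (he : Nonempty (M ≃ₜ Sph 3))
    (hO : ∀ x₀ : M, ∃ B : ℝ, 0 < B ∧ ∀ (k : Type) [Field k], Nonempty (OmegaOut M 2 x₀ B k)) :
    ∃ B : ℝ, 0 < B ∧ ∀ (k : Type) [Field k], LongClasses M 2 k → Nonempty (FLOut2 M B k) := by
  have hne : Nonempty M := by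
    obtain ⟨e⟩ := he
    have : (Metric.sphere (0 : EuclideanSpace ℝ (Fin (3 + 1))) 1).Nonempty :=
      NormedSpace.sphere_nonempty.2 zero_le_one
    exact ⟨e.symm ⟨_, this.some_mem⟩⟩
  obtain ⟨x₀⟩ := hne
  obtain ⟨B, hB, hO'⟩ := hO x₀
  obtain ⟨C⟩ := H388.stCaps 3 M x₀ (by omega) he
  obtain ⟨ℓ, Tp, Tm, hp, hm⟩ := exists_tracks₂ C hρ hU
  set T := trivOf C hp hm with hT
  have hD : 0 < DD B B 0 (2 * ℓ) := by
    have h1 := le_max_right (0 : ℝ) 1
    have h2 := T.c0
    unfold DD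
    linarith
  refine ⟨DD B B 0 (2 * ℓ), hD, fun k _ hL => ?_⟩
  obtain ⟨O⟩ := hO' k
  obtain ⟨P⟩ := exists_PM2 (H799.wang T k) (basedOf hB.le O) hB.le hB.le
    (cf_zero le_rfl T hL hB.le hB.le _)
  exact ⟨flOut2 P hD.le⟩

end Vale.Agent.P216.H828C
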