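import Vale.Agent.P216.H828C.PMY

/-!
# P216, Theorem C: one generator in every degree (`m = 2`, persistence modules)
-/

namespace Vale.Agent.P216.H828C

open Vale.Agent.P216.H901

variable {k : Type} [Field k] {G X : ℕ → PM k} {B C B0 c : ℝ}

/-- Output of the Wang sequence for the 3-sphere when all the structure constants vanish: one
generator in every degree. -/
structure PM2 (X : ℕ → PM k) (D : ℝ) where
  g : ∀ q, (X q).Fam
  line : ∀ q, (X q).Line (g q) D
  g_one : ∀ t ht, (g 1).z t ht = 0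
  birth_x0 : ∀ t ht, D ≤ t → (g 2).z t ht ≠ 0
  birth_x : ∀ i s t hs ht, s + D ≤ t → (g (2 * i + 2)).z s hs ≠ 0 →
    (g (2 * (i + 1) + 2)).z t ht ≠ 0
  birth_y0 : ∀ t ht, D ≤ t → (g 3).z t ht ≠ 0
  birth_y : ∀ i s t hs ht, s + D ≤ t → (g (2 * i + 3)).z s hs ≠ 0 →
    (g (2 * (i + 1) + 3)).z t ht ≠ 0

/-- A generator of degree `q`, and its births. -/
structure Gen (w : Wang 2 G X c) (b : Based 2 G B C B0) (q : ℕ) (g : (X q).Fam) : Prop where
  line : (X q).Line g (2 * (B + 2 * c))
  one : q = 1 → ∀ t ht, g.z t ht = 0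
  x_ne : ∀ j, q = 2 * j → ∀ s t hs ht, s + (B + 3 * c) ≤ t → (b.om j).z s hs ≠ 0 → g.z t ht ≠ 0
  om_x : ∀ j, q = 2 * j → ∀ s t hs ht, s + (B + 3 * c) ≤ t → g.z s hs ≠ 0 → (b.om j).z t ht ≠ 0
  y_ne : ∀ j, q = 2 * j + 3 → ∀ s t hs ht, s + (B + 3 * c) ≤ t → (b.om j).z s hs ≠ 0 →
    g.z t ht ≠ 0
  om_y : ∀ j, q = 2 * j + 3 → ∀ s t hs ht, s + (B + 3 * c) ≤ t → g.z s hs ≠ 0 →
    (b.om j).z t ht ≠ 0

theorem exists_gen (w : Wang 2 G X c) (b : Based 2 G B C B0) (hB : 0 ≤ B)
    (hcf : ∀ j, w.cf b hB j = 0) (q : ℕ) : ∃ g, Gen w b q g := by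
  have hc := w.c0
  rcases Nat.even_or_odd' q with ⟨j, rfl | rfl⟩
  · refine ⟨w.xF b le_rfl hB j (hcf j), w.line_xF b le_rfl hB j (hcf j), fun h => by omega,
      ?_, ?_, fun i h => by omega, fun i h => by omega⟩
    · intro i h s t hs ht hst hne
      obtain rfl : i = j := by omega
      exact w.xF_ne b le_rfl hB i (hcf i) hs ht (by linarith) hne
    · intro i h s t hs ht hst hne
      obtain rfl : i = j := by omega
      exact w.om_ne_of_xF b le_rfl hB i (hcf i) hs ht hst hne
  · rcases j with _ | j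
    · refine ⟨PM.Fam.zero _, ?_, fun _ _ _ => rfl, fun i h => by omega, fun i h => by omega,
        fun i h => by omega, fun i h => by omega⟩
      have h1 : (X (2 * 0 + 1)).Eph (2 * (B + 2 * c)) :=
        w.X_eph b hB (by omega) (fun j => by omega)
      intro s t hs hst hb x
      exact ⟨0, by rw [h1 s t hs hst hb x, zero_smul]⟩
    · refine ⟨w.yF b j, w.X_line_y b le_rfl hB j, fun h => by omega, fun i h => by omega,
        fun i h => by omega, ?_, ?_⟩
      · intro i h s t hs ht hst hne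
        obtain rfl : i = j := by omega
        exact w.yF_ne b le_rfl hB i (hcf (i + 1)) hs ht hst hne
      · intro i h s t hs ht hst hne
        obtain rfl : i = j := by omega
        exact w.om_ne_of_yF b i hs ht (by linarith) hne

/-- the constant -/
noncomputable def DD (B C B0 c : ℝ) : ℝ := 2 * (B + 3 * c) + C + max B0 1

theorem exists_PM2 (w : Wang 2 G X c) (b : Based 2 G B C B0) (hB : 0 ≤ B) (hC : 0 ≤ C)
    (hcf : ∀ j, w.cf b hB j = 0) : Nonempty (PM2 X (DD B C B0 c)) := by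
  have hc := w.c0
  choose g hg using exists_gen w b hB hcf
  have h1 := le_max_left B0 1
  have h2 := le_max_right B0 1
  refine ⟨{ g := g, line := ?_, g_one := (hg 1).one rfl, birth_x0 := ?_, birth_x := ?_,
            birth_y0 := ?_, birth_y := ?_ }⟩
  · intro q
    exact ((hg q).line).mono (by unfold DD; linarith)
  · intro t ht hD
    unfold DD at hD
    have h3 : (b.om 0).z (max B0 1) (by linarith) ≠ 0 := b.om0 _ _ h1
    have h4 : (b.om 1).z (max B0 1 + C) (by linarith) ≠ 0 :=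
      b.up 0 _ _ _ _ le_rfl h3
    exact (hg 2).x_ne 1 rfl _ t _ ht (by linarith) h4
  · intro i s t hs ht hst hne
    unfold DD at hst
    have h3 := (hg (2 * i + 2)).om_x (i + 1) (by ring) s (s + (B + 3 * c)) hs (by linarith) le_rfl
      hne
    have h4 := b.up (i + 1) _ (s + (B + 3 * c) + C) (by linarith) (by linarith) le_rfl h3
    exact (hg (2 * (i + 1) + 2)).x_ne (i + 2) (by ring) _ t _ ht (by linarith) h4
  · intro t ht hD
    unfold DD at hD
    have h3 : (b.om 0).z (max B0 1) (by linarith) ≠ 0 := b.om0 _ _ h1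
    exact (hg 3).y_ne 0 rfl _ t _ ht (by linarith) h3
  · intro i s t hs ht hst hne
    unfold DD at hst
    have h3 := (hg (2 * i + 3)).om_y i rfl s (s + (B + 3 * c)) hs (by linarith) le_rfl hne
    have h4 := b.up i _ (s + (B + 3 * c) + C) (by linarith) (by linarith) le_rfl h3
    exact (hg (2 * (i + 1) + 3)).y_ne (i + 1) rfl _ t _ ht (by linarith) h4

end Vale.Agent.P216.H828C
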