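import Vale.Agent.P216.H901.W4

/-!
# P216, Theorem C: births of the classes `y j`, and the structure constants vanish

Persistence-module level (`H901/W4.lean`), every field.
* `Wang.cf_zero_of_class`: one class of degree `m (j + 1)` with a long life forces `cf (j+1) = 0`;
* `Wang.yF_ne`, `Wang.om_ne_of_yF`: `y j` and `om j` are born at bounded distance if
  `cf (j + 1) = 0`.
-/

namespace Vale.Agent.P216.H901

variable {k : Type} [Field k] {m : ℕ} {G X : ℕ → PM k} {B C B0 c : ℝ}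

namespace Wang

variable (w : Wang m G X c) (b : Based m G B C B0)

include w b

/-- One class with a long life forces the structure constant to vanish. -/
theorem cf_zero_of_class (hm : 2 ≤ m) (hB : 0 ≤ B) (hC : 0 ≤ C) (j : ℕ) {s t : ℝ} (hs : 0 < s)
    (hst : s ≤ t) (h : s + (2 * B + C + 6 * c) ≤ t) (z : (X (m * (j + 1))).V t)
    (hz : (X (m * (j + 1))).ρ s t hs hst z ≠ 0) : w.cf b hB (j + 1) = 0 := by
  by_contra hj
  exact hz (w.eph_xF b hm hB hC j hj s t hs hst h z)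

/-- `κP j` restricts to `om j`. -/
theorem f_κP (j : ℕ) {s t : ℝ} (hs : 0 < s) (ht : 0 < t) (h : s + c ≤ t) :
    (w.iP (m * j)).f s t hs h ((w.κP b j).z t ht) = (b.om j).z s hs :=
  (w.iP (m * j)).f_f_fam w.c0 (b.om j) hs ht h

/-- `y j` is alive soon after `om j`. -/
theorem yF_ne (hm : 2 ≤ m) (hB : 0 ≤ B) (j : ℕ) (hj : w.cf b hB (j + 1) = 0) {s t : ℝ}
    (hs : 0 < s) (ht : 0 < t) (h : s + (B + 3 * c) ≤ t) (hne : (b.om j).z s hs ≠ 0) :
    (w.yF b j).z t ht ≠ 0 := by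
  have hc := w.c0
  intro h0
  apply hne
  have h0' : w.α (m * (j + 1) + 1) t ht ((w.κP b j).z t ht) = 0 := h0
  obtain ⟨q, hq⟩ := (w.ex3 (m * (j + 1)) t ht _).1 h0'
  have hs1 : 0 < t - (B + 2 * c) := by linarith
  obtain ⟨a, ha⟩ := w.Q_line b hB (j + 1) (t - (B + 2 * c)) t hs1 (by linarith) (by linarith) q
  have h1 : (w.κP b j).z (t - (B + 2 * c)) hs1 = 0 := by
    rw [← (w.κP b j).comp (t - (B + 2 * c)) t hs1 (by linarith)]
    have h2 : (w.P (m * (j + 1) + 1)).ρ (t - (B + 2 * c)) t hs1 (by linarith)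
        ((w.κP b j).z t ht) = 0 := by
      rw [← hq, w.δ_nat _ _ _ hs1 ht, ha, map_smul]
      have h3 : w.δ (m * (j + 1)) (t - (B + 2 * c)) hs1
          ((w.κ b (j + 1)).z (t - (B + 2 * c)) hs1) = 0 :=
        w.dκ_zero b hm hB (j + 1) hj (t - (B + 2 * c)) hs1
      rw [h3, smul_zero]
    exact h2
  rw [← w.f_κP b j hs hs1 (by linarith), h1, map_zero]

/-- `om j` is alive soon after `y j`. -/
theorem om_ne_of_yF (j : ℕ) {s t : ℝ} (hs : 0 < s) (ht : 0 < t) (h : s + c ≤ t)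
    (hne : (w.yF b j).z s hs ≠ 0) : (b.om j).z t ht ≠ 0 := by
  intro h0
  apply hne
  change w.α _ s hs ((w.κP b j).z s hs) = 0
  rw [← w.κP_eq b j hs ht h, h0, map_zero, map_zero]

end Wang

end Vale.Agent.P216.H901
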